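import Vale.Agent.P052.R2.H353.Defs

/-!
# P052, discrete route, (4f): a coherent 4-set all of whose triples lie in a second coherent 4-set
(helper559).  Inputs: `exists_hemi` and `fan` of the spec, as hypotheses.
-/

namespace P052D

open scoped RealInnerProductSpace
open Module

namespace H559

variable {V : Type*}

lemma ev_congr {φ ψ : List V → ZMod 2} {c : List (List V)} (h : ∀ l ∈ c, φ l = ψ l) :
    ev φ c = ev ψ c := by
  unfold ev
  rw [List.map_congr_left h]

lemma ev_nil (φ : List V → ZMod 2) : ev φ [] = 0 := by simp [ev]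

lemma ev_cons (φ : List V → ZMod 2) (l : List V) (c : List (List V)) :
    ev φ (l :: c) = φ l + ev φ c := by simp [ev]

lemma ev_append (φ : List V → ZMod 2) (c d : List (List V)) :
    ev φ (c ++ d) = ev φ c + ev φ d := by simp [ev]

lemma ev_map (φ : List V → ZMod 2) (f : List V → List V) (c : List (List V)) :
    ev φ (c.map f) = ev (fun l => φ (f l)) c := by
  simp [ev, Function.comp_def]

lemma ev_add (φ ψ : List V → ZMod 2) (c : List (List V)) :
    ev (fun l => φ l + ψ l) c = ev φ c + ev ψ c := by
  induction c with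
  | nil => simp [ev_nil]
  | cons l c ih => rw [ev_cons, ev_cons, ev_cons, ih]; ring

lemma ev_zero (c : List (List V)) : ev (fun _ => (0 : ZMod 2)) c = 0 := by
  induction c with
  | nil => simp [ev_nil]
  | cons l c ih => rw [ev_cons, ih]; ring

lemma ev_finset_sum {ι : Type*} (s : Finset ι) (φ : ι → List V → ZMod 2) (c : List (List V)) :
    ev (fun l => ∑ i ∈ s, φ i l) c = ∑ i ∈ s, ev (φ i) c := by
  induction c with
  | nil => simp [ev_nil]
  | cons l c ih =>
    simp only [ev_cons, ih, Finset.sum_add_distrib]

lemma ev_mul_left (a : ZMod 2) (φ : List V → ZMod 2) (c : List (List V)) :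
    ev (fun l => a * φ l) c = a * ev φ c := by
  induction c with
  | nil => simp [ev_nil]
  | cons l c ih => rw [ev_cons, ev_cons, ih]; ring

/-- if the value is nonzero, some list contributes -/
lemma exists_of_ev_ne {φ : List V → ZMod 2} {c : List (List V)} (h : ev φ c ≠ 0) :
    ∃ l ∈ c, φ l ≠ 0 := by
  by_contra hc
  push Not at hc
  exact h (by rw [ev_congr (ψ := fun _ => 0) hc, ev_zero])

lemma dl_eq {α : Type*} [DecidableEq α] (c : V → α) (Φ : Multiset α → ZMod 2) (l : List V) :
    dl (fun l => Φ (l.map c : Multiset α)) l =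
      ((l.map c : Multiset α).map (fun x => Φ ((l.map c : Multiset α).erase x))).sum := by
  have key : ∀ (L : List α), ∑ i ∈ Finset.range L.length, Φ (L.eraseIdx i : Multiset α) =
      ((L : Multiset α).map (fun x => Φ ((L : Multiset α).erase x))).sum := by
    intro L
    have h1 : ∀ i (hi : i < L.length), (L.eraseIdx i : Multiset α) =
        (L : Multiset α).erase (L[i]) := by
      intro i hi
      have := List.getElem_cons_eraseIdx_perm hi
      have h2 : ((L[i] :: L.eraseIdx i : List α) : Multiset α) = (L : Multiset α) :=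
        Multiset.coe_eq_coe.2 this
      rw [← h2]
      simp
    rw [Finset.sum_range]
    rw [Multiset.map_coe, Multiset.sum_coe]
    have h3 : (L.map fun x => Φ ((L : Multiset α).erase x)) =
        List.ofFn (fun i : Fin L.length => Φ ((L : Multiset α).erase (L[i]))) := by
      apply List.ext_getElem
      · simp
      · intro i h1 h2
        simp
    rw [h3, List.sum_ofFn]
    refine Finset.sum_congr rfl fun i _ => ?_
    rw [h1 i i.2]
    rfl
  have h := key (l.map c)
  rw [← h]
  unfold dl
  rw [List.length_map]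
  refine Finset.sum_congr rfl fun i _ => ?_
  rw [List.eraseIdx_map]

/-- counting the ways to erase one element -/
lemma erase_count {α : Type*} [DecidableEq α] [Fintype α] (M : Multiset α) (B : Finset α) :
    (M.map (fun x => if M.erase x = B.val then (1 : ZMod 2) else 0)).sum =
      ∑ b ∈ Bᶜ, if M = (insert b B).val then (1 : ZMod 2) else 0 := by
  classical
  by_cases hM : ∃ b, M = b ::ₘ B.val
  · obtain ⟨b, rfl⟩ := hM
    by_cases hb : b ∈ B
    · -- `b` occurs twice: both sides are zero
      have hB : B.val = b ::ₘ (B.erase b).val := by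
        rw [← Finset.insert_val_of_notMem (Finset.notMem_erase b B), Finset.insert_erase hb]
      have hr : ∑ x ∈ Bᶜ, (if (b ::ₘ B.val) = (insert x B).val then (1 : ZMod 2) else 0) = 0 := by
        refine Finset.sum_eq_zero fun x _ => ?_
        rw [if_neg]
        intro h
        have : (b ::ₘ B.val).Nodup := h ▸ (insert x B).nodup
        rw [Multiset.nodup_cons] at this
        exact this.1 hb
      rw [hr]
      have h1 : ∀ x ∈ (B.erase b).val, (b ::ₘ B.val).erase x ≠ B.val := by
        intro x hx h
        have hxB : x ∈ B.erase b := hx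
        have hne : x ≠ b := Finset.ne_of_mem_erase hxB
        have : x ∈ B.val := Finset.mem_of_mem_erase hxB
        have h2 : (b ::ₘ B.val).Nodup → False := by
          intro h3; exact (Multiset.nodup_cons.1 h3).1 hb
        rw [Multiset.erase_cons_tail _ (fun h => hne h.symm)] at h
        have h3 : Multiset.count x (b ::ₘ B.val.erase x) = Multiset.count x B.val := by rw [h]
        rw [Multiset.count_cons_of_ne hne, Multiset.count_erase_self] at h3
        have h4 : 0 < Multiset.count x B.val := Multiset.count_pos.2 this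
        omega
      rw [hB, Multiset.map_cons, Multiset.sum_cons, Multiset.map_cons, Multiset.sum_cons]
      rw [← hB]
      have h5 : ((B.erase b).val.map (fun x => if (b ::ₘ B.val).erase x = B.val
          then (1 : ZMod 2) else 0)).sum = 0 := by
        apply Multiset.sum_eq_zero
        intro y hy
        obtain ⟨x, hx, rfl⟩ := Multiset.mem_map.1 hy
        rw [if_neg (h1 x hx)]
      rw [h5, Multiset.erase_cons_head, if_pos rfl, add_zero]
      decide
    · have hr : ∑ x ∈ Bᶜ, (if (b ::ₘ B.val) = (insert x B).val then (1 : ZMod 2) else 0) = 1 := by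
        rw [Finset.sum_eq_single b]
        · rw [Finset.insert_val_of_notMem hb, if_pos rfl]
        · intro x _ hx
          rw [if_neg]
          intro h
          have : b ∈ (insert x B).val := h ▸ Multiset.mem_cons_self _ _
          have : b ∈ insert x B := this
          rw [Finset.mem_insert] at this
          rcases this with h | h
          · exact hx h.symm
          · exact hb h
        · intro h
          exact absurd (Finset.mem_compl.2 hb) h
      rw [hr, Multiset.map_cons, Multiset.sum_cons, Multiset.erase_cons_head, if_pos rfl]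
      have h5 : (B.val.map (fun x => if (b ::ₘ B.val).erase x = B.val
          then (1 : ZMod 2) else 0)).sum = 0 := by
        apply Multiset.sum_eq_zero
        intro y hy
        obtain ⟨x, hx, rfl⟩ := Multiset.mem_map.1 hy
        rw [if_neg]
        intro h
        have hne : x ≠ b := fun h => hb (h ▸ hx)
        rw [Multiset.erase_cons_tail _ (fun h => hne h.symm)] at h
        have : b ∈ B.val := h ▸ Multiset.mem_cons_self _ _
        exact hb this
      rw [h5, add_zero]
  · have hl : ∀ x ∈ M, M.erase x ≠ B.val := by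
      intro x hx h
      exact hM ⟨x, by rw [← h, Multiset.cons_erase hx]⟩
    have h1 : (M.map (fun x => if M.erase x = B.val then (1 : ZMod 2) else 0)).sum = 0 := by
      apply Multiset.sum_eq_zero
      intro y hy
      obtain ⟨x, hx, rfl⟩ := Multiset.mem_map.1 hy
      rw [if_neg (hl x hx)]
    rw [h1]
    symm
    refine Finset.sum_eq_zero fun x hx => ?_
    rw [if_neg]
    intro h
    rw [Finset.insert_val_of_notMem (Finset.mem_compl.1 hx)] at h
    exact hM ⟨x, h⟩

/-! ## labels -/

lemma zmod2_cases (g : ZMod 2) : g = 0 ∨ g = 1 := by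
  revert g; decide

lemma natCast_zmod2 (n : ℕ) : (n : ZMod 2) = if Odd n then 1 else 0 := by
  split_ifs with h
  · exact (ZMod.natCast_eq_one_iff_odd).2 h
  · exact (ZMod.natCast_eq_zero_iff_even).2 (Nat.not_odd_iff_even.1 h)

lemma bool_iff (g : ZMod 2) (n : ℕ) (b : Bool) :
    (decide (g = 1) = (b ^^ decide (Odd n))) ↔ g + (n : ZMod 2) = if b then 1 else 0 := by
  rw [natCast_zmod2]
  by_cases hn : Odd n
  · simp only [hn, if_true, decide_true]
    rcases zmod2_cases g with rfl | rfl <;> cases b <;> decide
  · simp only [hn, if_false, decide_false]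
    rcases zmod2_cases g with rfl | rfl <;> cases b <;> decide

/-- the signed label of a vector -/
noncomputable def lab {C : Col 4 10} (K : Key C) (x : E 4) : Lb 10 :=
  (decide (K.G x = 1), C.c x)

lemma lab_neg {C : Col 4 10} (K : Key C) (x : E 4) (hx : ‖x‖ = 1) :
    lab K (-x) = (!(lab K x).1, (lab K x).2) := by
  unfold lab
  rw [K.G_neg x hx, C.even x hx]
  have h2 : ∀ g : ZMod 2, decide (g + 1 = 1) = !(decide (g = 1)) := by decide
  exact Prod.ext (h2 _) rfl

lemma lab_close {C : Col 4 10} (K : Key C) (x y : E 4) (hx : ‖x‖ = 1) (hy : ‖y‖ = 1)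
    (h : ‖x - y‖ < K.δ) (hc : (lab K x).2 = (lab K y).2) : (lab K x).1 = (lab K y).1 := by
  have h1 := K.G_add x y hx hy h
  have hc' : C.c x = C.c y := hc
  rw [hc', K.s_self] at h1
  have : K.G x = K.G y := by
    rcases zmod2_cases (K.G x) with hx | hx <;> rcases zmod2_cases (K.G y) with hy | hy <;>
      rw [hx, hy] at h1 ⊢ <;> revert h1 <;> decide
  simp only [lab, this]

/-- parity of the number of smaller elements -/
def rr (A : Finset (Fin 10)) (i : Fin 10) : ZMod 2 := ((A.filter (fun j => j < i)).card : ZMod 2)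

lemma alt_iff {C : Col 4 10} (K : Key C) (l : List (E 4)) (A : Finset (Fin 10))
    (hA : (l.map C.c : Multiset (Fin 10)) = A.val) (b : Bool) :
    Alt b (l.map (lab K) : Multiset (Lb 10)) ↔
      ∀ x ∈ l, K.G x + rr A (C.c x) = if b then 1 else 0 := by
  have hsnd : ((l.map (lab K) : List (Lb 10)) : Multiset (Lb 10)).map Prod.snd = A.val := by
    rw [← hA, Multiset.map_coe, List.map_map]
    rfl
  have hcard : ∀ i : Fin 10,
      (((l.map (lab K) : List (Lb 10)) : Multiset (Lb 10)).filter (fun y => y.2 < i)).card =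
        (A.filter (fun j => j < i)).card := by
    intro i
    have h1 : (A.filter (fun j => j < i)).card =
        ((((l.map (lab K) : List (Lb 10)) : Multiset (Lb 10)).map Prod.snd).filter
          (fun j => j < i)).card := by
      rw [hsnd]; rfl
    rw [h1, Multiset.filter_map, Multiset.card_map]
    rfl
  unfold Alt
  rw [hsnd]
  constructor
  · rintro ⟨-, h⟩ x hx
    have h1 := h (lab K x) (by
      rw [Multiset.mem_coe]; exact List.mem_map_of_mem hx)
    have h2 : (lab K x).2 = C.c x := rfl
    rw [h2, hcard] at h1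
    exact (bool_iff _ _ _).1 h1
  · intro h
    refine ⟨A.nodup, ?_⟩
    intro y hy
    rw [Multiset.mem_coe, List.mem_map] at hy
    obtain ⟨x, hx, rfl⟩ := hy
    have h2 : (lab K x).2 = C.c x := rfl
    rw [h2, hcard]
    exact (bool_iff _ _ _).2 (h x hx)

/-- the flip of the sign -/
def flip (x : Lb 10) : Lb 10 := (!x.1, x.2)

lemma alt_flip (b : Bool) (s : Multiset (Lb 10)) : Alt b (s.map flip) ↔ Alt (!b) s := by
  unfold Alt
  have h1 : (s.map flip).map Prod.snd = s.map Prod.snd := by
    rw [Multiset.map_map]; rfl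
  rw [h1]
  refine and_congr_right fun _ => ?_
  have hcard : ∀ i : Fin 10, ((s.map flip).filter (fun y => y.2 < i)).card =
      (s.filter (fun y => y.2 < i)).card := by
    intro i
    rw [Multiset.filter_map, Multiset.card_map]
    rfl
  constructor
  · intro h x hx
    have := h (flip x) (Multiset.mem_map_of_mem _ hx)
    rw [hcard] at this
    have h2 : (flip x).2 = x.2 := rfl
    have h3 : (flip x).1 = !x.1 := rfl
    rw [h2, h3] at this
    rcases hx1 : x.1 with _ | _ <;> rw [hx1] at this <;> cases b <;> simp_all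
  · intro h y hy
    obtain ⟨x, hx, rfl⟩ := Multiset.mem_map.1 hy
    have := h x hx
    rw [hcard]
    have h2 : (flip x).2 = x.2 := rfl
    have h3 : (flip x).1 = !x.1 := rfl
    rw [h2, h3, this]
    cases b <;> simp

/-- `γ A = 1` if the signs prescribed by `s` alternate along `A` -/
noncomputable def gam {C : Col 4 10} (K : Key C) (A : Finset (Fin 10)) : ZMod 2 :=
  open Classical in
  if ∀ i ∈ A, ∀ j ∈ A, K.s i j = rr A i + rr A j then 1 else 0

open Classical in
lemma local_count {C : Col 4 10} (K : Key C) (l : List (E 4)) (hlen : l.length = 4)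
    (hunit : ∀ x ∈ l, ‖x‖ = 1) (hmesh : ∀ x ∈ l, ∀ y ∈ l, ‖x - y‖ < K.δ) :
    (if Alt true (l.map (lab K) : Multiset (Lb 10)) then (1 : ZMod 2) else 0) +
      (if Alt false (l.map (lab K) : Multiset (Lb 10)) then (1 : ZMod 2) else 0) =
    ∑ A ∈ Finset.powersetCard 4 (Finset.univ : Finset (Fin 10)),
      gam K A * (if (l.map C.c : Multiset (Fin 10)) = A.val then 1 else 0) := by
  by_cases hnd : (l.map C.c).Nodup
  · have hA : (l.map C.c : Multiset (Fin 10)) = (l.map C.c).toFinset.val := by
      rw [List.toFinset_val, hnd.dedup]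
    set A := (l.map C.c).toFinset with hAdef
    have hAcard : A.card = 4 := by
      rw [hAdef, List.toFinset_card_of_nodup hnd, List.length_map, hlen]
    have hmem : ∀ i, i ∈ A ↔ ∃ x ∈ l, C.c x = i := by
      intro i
      rw [hAdef, List.mem_toFinset, List.mem_map]
    rw [Finset.sum_eq_single A]
    · rw [if_pos hA, mul_one]
      obtain ⟨x0, hx0⟩ : ∃ x, x ∈ l := by
        cases l with
        | nil => simp at hlen
        | cons x l => exact ⟨x, List.mem_cons_self⟩
      have h1 := alt_iff K l A hA true
      have h2 := alt_iff K l A hA false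
      by_cases hg : ∀ i ∈ A, ∀ j ∈ A, K.s i j = rr A i + rr A j
      · have hgam : gam K A = 1 := by unfold gam; rw [if_pos hg]
        rw [hgam]
        have hconst : ∀ x ∈ l, K.G x + rr A (C.c x) = K.G x0 + rr A (C.c x0) := by
          intro x hx
          have h3 := K.G_add x x0 (hunit x hx) (hunit x0 hx0) (hmesh x hx x0 hx0)
          rw [hg _ ((hmem _).2 ⟨x, hx, rfl⟩) _ ((hmem _).2 ⟨x0, hx0, rfl⟩)] at h3
          generalize K.G x = a at *
          generalize K.G x0 = b at *
          generalize rr A (C.c x) = c at *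
          generalize rr A (C.c x0) = d at *
          revert h3; revert a b c d; decide
        rcases zmod2_cases (K.G x0 + rr A (C.c x0)) with h0 | h0
        · have hf : Alt false (l.map (lab K) : Multiset (Lb 10)) := by
            rw [h2]; intro x hx; rw [hconst x hx, h0]; rfl
          have ht : ¬ Alt true (l.map (lab K) : Multiset (Lb 10)) := by
            rw [h1]; intro h; have := h x0 hx0; rw [h0] at this; simp at this
          rw [if_pos hf, if_neg ht]; rfl
        · have ht : Alt true (l.map (lab K) : Multiset (Lb 10)) := by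
            rw [h1]; intro x hx; rw [hconst x hx, h0]; rfl
          have hf : ¬ Alt false (l.map (lab K) : Multiset (Lb 10)) := by
            rw [h2]; intro h; have := h x0 hx0; rw [h0] at this; simp at this
          rw [if_neg hf, if_pos ht]; rfl
      · have hgam : gam K A = 0 := by unfold gam; rw [if_neg hg]
        rw [hgam]
        have key : ∀ b : Bool, ¬ Alt b (l.map (lab K) : Multiset (Lb 10)) := by
          intro b hb
          rw [alt_iff K l A hA b] at hb
          apply hg
          intro i hi j hj
          obtain ⟨x, hx, rfl⟩ := (hmem i).1 hi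
          obtain ⟨y, hy, rfl⟩ := (hmem j).1 hj
          rw [← K.G_add x y (hunit x hx) (hunit y hy) (hmesh x hx y hy)]
          have h3 := hb x hx
          have h4 := hb y hy
          rw [← h4] at h3
          have h5 : ∀ a a' c d : ZMod 2, a + c = a' + d → a + a' = c + d := by decide
          exact h5 _ _ _ _ h3
        rw [if_neg (key true), if_neg (key false)]; rfl
    · intro B _ hB
      rw [if_neg, mul_zero]
      intro h
      exact hB (Finset.val_inj.1 (by rw [← h, hA]))
    · intro h
      exact absurd (Finset.mem_powersetCard.2 ⟨Finset.subset_univ _, hAcard⟩) h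
  · have h1 : ∀ b : Bool, ¬ Alt b (l.map (lab K) : Multiset (Lb 10)) := by
      intro b hb
      have := hb.1
      rw [Multiset.map_coe, List.map_map] at this
      exact hnd this
    rw [if_neg (h1 true), if_neg (h1 false)]
    symm
    rw [add_zero]
    refine Finset.sum_eq_zero fun A _ => ?_
    rw [if_neg, mul_zero]
    intro h
    have h2 : (A.val).Nodup := A.nodup
    rw [← h] at h2
    exact hnd h2

/-- number mod 2 of the lists with colour set `A` -/
noncomputable def Nn (C : Col 4 10) (h : List (List (E 4))) (A : Finset (Fin 10)) : ZMod 2 :=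
  ev (fun l => if (l.map C.c : Multiset (Fin 10)) = A.val then 1 else 0) h

open Classical in
lemma sum_gam {C : Col 4 10} (K : Key C) (H : Hemi (E 4) 4 K.δ)
    (hfan : ev (fun l => if Alt true (l.map (lab K) : Multiset (Lb 10)) then (1 : ZMod 2) else 0)
      (H.Z 3) = 1) :
    ∑ A ∈ Finset.powersetCard 4 (Finset.univ : Finset (Fin 10)), gam K A * Nn C (H.h 3) A = 1 := by
  have h1 : ∀ l ∈ H.h 3, (if Alt true ((l.map Neg.neg).map (lab K) : Multiset (Lb 10))
      then (1 : ZMod 2) else 0) =
      if Alt false (l.map (lab K) : Multiset (Lb 10)) then (1 : ZMod 2) else 0 := by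
    intro l hl
    have h2 : (((l.map Neg.neg).map (lab K) : List (Lb 10)) : Multiset (Lb 10)) =
        ((l.map (lab K) : List (Lb 10)) : Multiset (Lb 10)).map flip := by
      rw [Multiset.map_coe, List.map_map, List.map_map]
      congr 1
      apply List.map_congr_left
      intro x hx
      exact lab_neg K x (H.unit 3 (by norm_num) l hl x hx)
    rw [h2]
    have h3 := alt_flip true ((l.map (lab K) : List (Lb 10)) : Multiset (Lb 10))
    simp only [Bool.not_true] at h3
    by_cases h4 : Alt false (l.map (lab K) : Multiset (Lb 10))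
    · rw [if_pos h4, if_pos (h3.2 h4)]
    · rw [if_neg h4, if_neg (fun h => h4 (h3.1 h))]
  have h2 : ev (fun l => if Alt true (l.map (lab K) : Multiset (Lb 10)) then (1 : ZMod 2) else 0)
      (H.Z 3) = ev (fun l => ∑ A ∈ Finset.powersetCard 4 (Finset.univ : Finset (Fin 10)),
        gam K A * (if (l.map C.c : Multiset (Fin 10)) = A.val then 1 else 0)) (H.h 3) := by
    unfold Hemi.Z
    rw [ev_append, ev_map]
    rw [ev_congr (φ := fun l => if Alt true ((l.map Neg.neg).map (lab K) : Multiset (Lb 10))
      then (1 : ZMod 2) else 0) h1, ← ev_add]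
    apply ev_congr
    intro l hl
    exact local_count K l (H.len 3 (by norm_num) l hl) (H.unit 3 (by norm_num) l hl)
      (H.mesh 3 (by norm_num) l hl)
  rw [h2, ev_finset_sum] at hfan
  rw [← hfan]
  refine Finset.sum_congr rfl fun A _ => ?_
  rw [ev_mul_left]
  rfl

lemma coh_of_ne {C : Col 4 10} (K : Key C) (H : Hemi (E 4) 4 K.δ) (A : Finset (Fin 10))
    (hA : Nn C (H.h 3) A ≠ 0) : Coh K.s A := by
  obtain ⟨l, hl, h1⟩ := exists_of_ev_ne hA
  have h2 : (l.map C.c : Multiset (Fin 10)) = A.val := by
    by_contra h; exact h1 (if_neg h)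
  have hmem : ∀ i ∈ A, ∃ x ∈ l, C.c x = i := by
    intro i hi
    have : i ∈ (l.map C.c : Multiset (Fin 10)) := by rw [h2]; exact hi
    rw [Multiset.mem_coe, List.mem_map] at this
    exact this
  intro x hx y hy z hz
  obtain ⟨u, hu, rfl⟩ := hmem x hx
  obtain ⟨v, hv, rfl⟩ := hmem y hy
  obtain ⟨w, hw, rfl⟩ := hmem z hz
  have hun := H.unit 3 (by norm_num) l hl
  have hme := H.mesh 3 (by norm_num) l hl
  unfold tt
  rw [← K.G_add u v (hun u hu) (hun v hv) (hme u hu v hv),
    ← K.G_add v w (hun v hv) (hun w hw) (hme v hv w hw),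
    ← K.G_add u w (hun u hu) (hun w hw) (hme u hu w hw)]
  have h5 : ∀ a b c : ZMod 2, a + b + (b + c) + (a + c) = 0 := by decide
  exact h5 _ _ _

lemma cycle {C : Col 4 10} {δ : ℝ} (H : Hemi (E 4) 4 δ) (B : Finset (Fin 10)) :
    ∑ b ∈ Bᶜ, Nn C (H.h 3) (insert b B) = 0 := by
  classical
  have h1 := H.bd 2 (by norm_num)
    (fun l => if (l.map C.c : Multiset (Fin 10)) = B.val then 1 else 0)
  have h2 : ev (fun l => if ((l.map Neg.neg).map C.c : Multiset (Fin 10)) = B.val
      then (1 : ZMod 2) else 0) (H.h 2) =
      ev (fun l => if (l.map C.c : Multiset (Fin 10)) = B.val then (1 : ZMod 2) else 0) (H.h 2) := by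
    apply ev_congr
    intro l hl
    have h3 : (l.map Neg.neg).map C.c = l.map C.c := by
      rw [List.map_map]
      apply List.map_congr_left
      intro x hx
      exact C.even x (H.unit 2 (by norm_num) l hl x hx)
    rw [h3]
  rw [h2, CharTwo.add_self_eq_zero] at h1
  have h3 : dl (fun l : List (E 4) => if (l.map C.c : Multiset (Fin 10)) = B.val
      then (1 : ZMod 2) else 0) =
      fun l => ∑ b ∈ Bᶜ, if (l.map C.c : Multiset (Fin 10)) = (insert b B).val then 1 else 0 := by
    funext l
    have h4 := dl_eq C.c (fun M => if M = B.val then (1 : ZMod 2) else 0) l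
    rw [h4, erase_count]
  rw [h3, ev_finset_sum] at h1
  exact h1

end H559

open Classical in
/-- (4f), from `exists_hemi` and `fan` (hypotheses) -/
theorem Key.pure_of (hhemi : ∀ δ : ℝ, 0 < δ → Nonempty (Hemi (E 4) 4 δ))
    (hfan : ∀ (δ : ℝ) (H : Hemi (E 4) 4 δ) (ℓ : E 4 → Lb 10),
      (∀ x, ‖x‖ = 1 → ℓ (-x) = (!(ℓ x).1, (ℓ x).2)) →
      (∀ x y, ‖x‖ = 1 → ‖y‖ = 1 → ‖x - y‖ < δ → (ℓ x).2 = (ℓ y).2 → (ℓ x).1 = (ℓ y).1) →
      ∀ k < 4, ev (fun l => if Alt true (l.map ℓ : Multiset (Lb 10)) then (1 : ZMod 2) else 0)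
        (H.Z k) = 1)
    {C : Col 4 10} (K : Key C) : ∃ A : Finset (Fin 10), A.card = 4 ∧ Coh K.s A ∧
    ∀ a ∈ A, ∃ b, b ∉ A ∧ Coh K.s (insert b (A.erase a)) := by
  obtain ⟨H⟩ := hhemi K.δ K.δ_pos
  have h1 := H559.sum_gam K H (hfan K.δ H (H559.lab K) (H559.lab_neg K)
    (fun x y hx hy h hc => H559.lab_close K x y hx hy h hc) 3 (by norm_num))
  have h2 : ∃ A ∈ Finset.powersetCard 4 (Finset.univ : Finset (Fin 10)),
      H559.gam K A * H559.Nn C (H.h 3) A ≠ 0 := by
    by_contra h
    push Not at h
    rw [Finset.sum_eq_zero h] at h1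
    exact zero_ne_one h1
  obtain ⟨A, hA, hne⟩ := h2
  have hN : H559.Nn C (H.h 3) A ≠ 0 := right_ne_zero_of_mul hne
  refine ⟨A, (Finset.mem_powersetCard.1 hA).2, H559.coh_of_ne K H A hN, ?_⟩
  intro a ha
  have h3 := H559.cycle (C := C) H (A.erase a)
  have ha' : a ∈ (A.erase a)ᶜ := by simp
  rw [← Finset.add_sum_erase _ _ ha', Finset.insert_erase ha] at h3
  have h4 : ∃ b ∈ ((A.erase a)ᶜ).erase a, H559.Nn C (H.h 3) (insert b (A.erase a)) ≠ 0 := by
    by_contra h
    push Not at h
    rw [Finset.sum_eq_zero h, add_zero] at h3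
    exact hN h3
  obtain ⟨b, hb, hb2⟩ := h4
  refine ⟨b, ?_, H559.coh_of_ne K H _ hb2⟩
  rw [Finset.mem_erase, Finset.mem_compl, Finset.mem_erase] at hb
  intro hbA
  exact hb.2 ⟨hb.1, hbA⟩

end P052D
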